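/-!
# Row 285 (S0430): plan of the proof

Goal: sample `exp (-V)` (`I ≤ D²V ≤ 2I`) with `d^ε` gradient queries.

1. (`Outer`) Proximal sampler with step `τ² = L^{-2a}`, `L ≈ d^{1/T}`; all errors in dual `W₁`
   (`Sim`), total variation at the very end by adding a tiny Gaussian.
2. One step needs `z + τ' ξ`, `z ∼ nu V τ² y`.  In rescaled units `W = V (y + τ ·)`, `D²W ≤ δ = 2τ²`.
   The Kim-Milman flow `Φ_r' = - G (1 - r², r Φ_r)` (`G = Gv W`, gradient of the quenched smoothing
   `Wt`) pushes `γ` to `mu W r` = law of `r z + √(1-r²) ξ` (`Flow`, `Transport`, `Marg`).  It is simulated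
   by Picard iteration + quadrature (`kmT`, `KMerr`), which needs `G (s, x)` for `s ∈ [κ², 1]`.
3. Mean oracle: sample `N (c G(1,0), I)` from evaluations of `G (κ², ·)` at the top level (`Core`).
   With `J_r = DΦ_r⁻¹`, `δ_γ (J_r e_i) = (Φ_r + r g_r ∘ Φ_r)_i`, so a combination
   `A = c ∑ v_j (J_{r_j} - I)ᵀ` has `δ A ≈ c (g_R ∘ Φ_R - m)` (`Quad2`).  The field
   `BA A = (δ A, -Aᵀ ζ)` preserves `γ × γ`, its truncated Lie series almost does (`Lie`, `Skew`, `Sob`),
   and it is simulated by Picard iteration (`Coll`); `J_r ζ` is obtained by differencing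
   `Φ_r⁻¹ ∘ HMC ∘ Φ_r` (`CoreA`).  Tame derivative bounds: `Appell`, `Tame`, `DCalc*`, `FlowM`.
4. (`Orc`) Recursion over accuracy levels: evaluation points are only available with Gaussian noise,
   which is absorbed in the Gaussian seed `ω`; inner calls gain a factor `L^{-a}`, the top level
   calls decrease the scale by `κ = L^{-2}`.
-/
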